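import Vale.Agent.P109.Spectral.Step.Main
import Vale.Agent.P109.Spectral.Recursion.Main
import Vale.Agent.P109.Spectral.Iso
import Vale.Agent.P109.Spectral.Model
import Vale.Agent.P109.Spectral.Analysis.Limit
import Vale.Agent.P109.Spectral.Analysis.Manifold

/-!
P109: every rotation with pure point spectrum whose eigenvalue group has finite torsion-free rank
and is not finitely generated has a smooth volume preserving model on a torus.
-/

namespace Vale.Agent.Results.P109.FiniteRankSpectrum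

open MeasureTheory
open Vale.Agent.P109.Spectral (Ix circVol IsSmooth)
open scoped Vale.Agent.P109.Spectral

theorem result :
    ∀ Λ : AddSubgroup UnitAddCircle, Countable Λ → ¬ Λ.FG →
    (∃ (r : ℕ) (b : Fin r → Λ), ∀ a : Λ, ∃ n : ℕ, 0 < n ∧ ∃ c : Fin r → ℤ,
      n • a = ∑ i, c i • b i) →
    ∃ (d : ℕ) (S : (Ix d → Circle) ≃ (Ix d → Circle)),
      IsSmooth S ∧ IsSmooth S.symm ∧ MeasurePreserving S (circVol d) (circVol d) ∧
      ∃ (μ : Measure (Λ → UnitAddCircle)) (Φ : (Ix d → Circle) → Λ → UnitAddCircle)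
        (Ψ : (Λ → UnitAddCircle) → Ix d → Circle),
        IsProbabilityMeasure μ ∧
        (∀ᵐ χ ∂μ, ∀ a b : Λ, χ (a + b) = χ a + χ b) ∧
        (∀ s : Λ → UnitAddCircle, (∀ a b : Λ, s (a + b) = s a + s b) →
          MeasurePreserving (fun χ => s + χ) μ μ) ∧
        MeasurePreserving Φ (circVol d) μ ∧ MeasurePreserving Ψ μ (circVol d) ∧
        (Ψ ∘ Φ =ᵐ[circVol d] id) ∧ (Φ ∘ Ψ =ᵐ[μ] id) ∧
        ∀ᵐ x ∂(circVol d), ∀ a : Λ, Φ (S x) a = (a : UnitAddCircle) + Φ x a := by
  intro Λ hc hfg hrank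
  obtain ⟨d, S, hS1, hS2, hS3, μ, Φ, Ψ, hμ, hinv, hΦ, hΨ, hΨΦ, hΦΨ, heq⟩ :=
    Vale.Agent.P109.Spectral.recursionSpec Vale.Agent.P109.Spectral.conjSpec Vale.Agent.P109.Spectral.limitSpec
      Vale.Agent.P109.Spectral.manifoldSpec Vale.Agent.P109.Spectral.stepSpec
      Vale.Agent.P109.Spectral.isoSpec Λ hc hfg hrank
  open Vale.Agent.P109.Spectral in
  classical
  have hv : Measurable (Subtype.val : Hom Λ → Λ → UnitAddCircle) := measurable_subtype_coe
  have hset : MeasurableSet {χ : Λ → UnitAddCircle | ∀ a b, χ (a + b) = χ a + χ b} := by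
    have := hc
    simp only [Set.ofPred_forall]
    exact MeasurableSet.iInter fun a => MeasurableSet.iInter fun b =>
      measurableSet_eq_fun (measurable_pi_apply _)
        ((measurable_pi_apply a).add (measurable_pi_apply b))
  have he : MeasurableEmbedding (Subtype.val : Hom Λ → Λ → UnitAddCircle) :=
    MeasurableEmbedding.subtype_coe hset
  let χ0 : Hom Λ := ⟨0, fun _ _ => (add_zero _).symm⟩
  let ext : (Λ → UnitAddCircle) → Hom Λ := Function.extend Subtype.val id fun _ => χ0
  have hext : Measurable ext := he.measurable_extend measurable_id measurable_const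
  have hex : ∀ χ : Hom Λ, ext χ.1 = χ := fun χ => Subtype.val_injective.extend_apply _ _ χ
  have hmp : MeasurePreserving (Subtype.val : Hom Λ → Λ → UnitAddCircle) μ (μ.map Subtype.val) :=
    ⟨hv, rfl⟩
  have hmp' : MeasurePreserving ext (μ.map Subtype.val) μ := by
    refine ⟨hext, ?_⟩
    rw [Measure.map_map hext hv, show ext ∘ Subtype.val = id from funext hex, Measure.map_id]
  refine ⟨d, S, hS1, hS2, hS3, μ.map Subtype.val, fun x => (Φ x).1, Ψ ∘ ext,
    Measure.isProbabilityMeasure_map hv.aemeasurable, ?_, fun s hs => ?_, hmp.comp hΦ,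
    hΨ.comp hmp', ?_, ?_, ?_⟩
  · exact (he.ae_map_iff).mpr (Filter.Eventually.of_forall fun χ => χ.2)
  · have hs' : Measurable fun χ : Λ → UnitAddCircle => s + χ := measurable_const_add s
    refine ⟨hs', ?_⟩
    rw [Measure.map_map hs' hv]
    conv_rhs => rw [← (hinv ⟨s, hs⟩).map_eq, Measure.map_map hv (hinv ⟨s, hs⟩).measurable]
    rfl
  · filter_upwards [hΨΦ] with x hx
    simpa [hex] using hx
  · exact (he.ae_map_iff).mpr (hΦΨ.mono fun χ hχ => by simpa [hex] using congrArg Subtype.val hχ)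
  · filter_upwards [heq] with x hx a
    exact congrFun (congrArg Subtype.val hx) a

end Vale.Agent.Results.P109.FiniteRankSpectrum
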