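import Vale.Agent.P109.System
import Vale.Agent.P109.Chain
import Vale.Agent.P109.Limit
import Vale.Agent.P109.Entropy
import Vale.Agent.P109.Chart
import Vale.Agent.P109.CountGen
import Vale.Agent.P109.PolyGen
import Vale.Agent.P109.Smooth

/-!
P109: for each growth rate of derivatives, an ergodic entropy-zero system with no positive-volume
model by a real-analytic map or by a smooth map of that growth.
-/

namespace Vale.Agent.Results.P109.NoBoundedGrowthModel

open MeasureTheory
open scoped ContDiff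
open Vale.Agent.P109 (shift ksEntropy GrowthBound)

universe u v

theorem result (R : ℕ → ℝ) :
    ∃ μ : Measure (ℤ → Bool), IsProbabilityMeasure μ ∧ NoAtoms μ ∧ Function.Bijective shift ∧
      Ergodic shift μ ∧ ksEntropy μ shift = 0 ∧
      (∀ (d : ℕ) {H : Type v} [TopologicalSpace H]
        (I : ModelWithCorners ℝ (EuclideanSpace ℝ (Fin d)) H)
        {M : Type u} [TopologicalSpace M] [ChartedSpace H M] [IsManifold I ω M]
        [CompactSpace M] [T2Space M] [MeasurableSpace M] [BorelSpace M]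
        (ν : Measure M) [IsProbabilityMeasure ν],
        (∀ x : M, (ν.restrict (extChartAt I x).source).map (extChartAt I x) ≪ volume) →
        ∀ S : M → M, ContMDiff I I ω S → MeasurePreserving S ν ν →
          ¬ ∃ F : M → ℤ → Bool, MeasurePreserving F ν μ ∧ F ∘ S =ᵐ[ν] shift ∘ F) ∧
      ∀ (d : ℕ) {H : Type v} [TopologicalSpace H]
        (I : ModelWithCorners ℝ (EuclideanSpace ℝ (Fin d)) H)
        {M : Type u} [TopologicalSpace M] [ChartedSpace H M] [IsManifold I ∞ M]
        [CompactSpace M] [T2Space M] [MeasurableSpace M] [BorelSpace M]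
        (ν : Measure M) [IsProbabilityMeasure ν],
        (∀ x : M, (ν.restrict (extChartAt I x).source).map (extChartAt I x) ≪ volume) →
        ∀ S : M → M, ContMDiff I I ∞ S → GrowthBound R I S → MeasurePreserving S ν ν →
          ¬ ∃ F : M → ℤ → Bool, MeasurePreserving F ν μ ∧ F ∘ S =ᵐ[ν] shift ∘ F := by
  obtain ⟨f, hsmall, hsqrt, hsys⟩ := Vale.Agent.P109.smooth.{u, v} R
  obtain ⟨C, hC, hmodel⟩ := Vale.Agent.P109.countGen.{u} f hsmall
  obtain ⟨μ, h1, h2, h3, h4, h5⟩ :=
    Vale.Agent.P109.system_of_catalogue.{u} Vale.Agent.P109.chain Vale.Agent.P109.limit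
      Vale.Agent.P109.entropy hC
  refine ⟨μ, h1, h2, Vale.Agent.P109.shift_bijective, h3, h4, ?_, ?_⟩
  · intro d H _ I M _ _ _ _ _ _ _ ν _ hac S hS hSm
    obtain ⟨D⟩ := Vale.Agent.P109.chart.{u, v} d I ν hac S hS
    exact h5 ν S hSm fun g hg δ hδ =>
      hmodel d ν S hSm (Vale.Agent.P109.polyGen.{u} f hsqrt d ν S D) g hg δ hδ
  · intro d H _ I M _ _ _ _ _ _ _ ν _ hac S hS hR hSm
    exact h5 ν S hSm fun g hg δ hδ =>
      hmodel d ν S hSm (hsys d I ν hac S hS hR) g hg δ hδ

end Vale.Agent.Results.P109.NoBoundedGrowthModel
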